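import Vale.Agent.H24.GSH.Defs

/-! P329, row S: star-free languages from order preserving partial injections -/

namespace Vale.Agent.H12.GSH
open Vale.Agent.H24.GSH

section runs
variable {α Q : Type}

theorem run_append (δ : Q → α → Option Q) (q : Q) (u v : List α) :
    run δ q (u ++ v) = (run δ q u).bind fun r => run δ r v := by
  induction u generalizing q with
  | nil => simp [run]
  | cons a u ih =>
    simp only [List.cons_append, run]
    cases h : δ q a with
    | none => simp
    | some r => simp [ih]

theorem run_mono [LinearOrder Q] (δ : Q → α → Option Q) (hm : Mono δ) (w : List α) :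
    ∀ p q p' q', p < q → run δ p w = some p' → run δ q w = some q' → p' < q' := by
  induction w with
  | nil =>
    intro p q p' q' h h1 h2
    simp only [run, Option.some.injEq] at h1 h2
    subst h1; subst h2; exact h
  | cons a w ih =>
    intro p q p' q' h h1 h2
    simp only [run] at h1 h2
    cases hp : δ p a with
    | none => simp [hp] at h1
    | some r =>
      cases hq : δ q a with
      | none => simp [hq] at h2
      | some s =>
        rw [hp] at h1; rw [hq] at h2
        exact ih r s p' q' (hm a p q r s h hp hq) (by simpa using h1) (by simpa using h2)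

end runs

/-- words over `B` -/
def Over {α : Type} (B : Finset α) (w : List α) : Prop := ∀ a ∈ w, a ∈ B

theorem H_over' {α : Type} [Finite α] (B : Finset α) : H 0 {w : List α | Over B w} := by
  have := H_over (α := α) (B : Set α)
  simpa [Over] using this

/-- concatenation of the blocks `u b` -/
def D {α : Type} (b : α) (us : List (List α)) : List α := (us.map (fun u => u ++ [b])).flatten

theorem D_nil {α : Type} (b : α) : D b [] = [] := rfl

theorem D_cons {α : Type} (b : α) (u : List α) (us : List (List α)) :
    D b (u :: us) = u ++ [b] ++ D b us := by simp [D]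

theorem D_append {α : Type} (b : α) (us vs : List (List α)) :
    D b (us ++ vs) = D b us ++ D b vs := by simp [D]

theorem app_inj {α : Type} (b : α) (u u' R R' : List α) (hu : b ∉ u) (hu' : b ∉ u')
    (h : u ++ [b] ++ R = u' ++ [b] ++ R') : u = u' ∧ R = R' := by
  induction u generalizing u' with
  | nil =>
    cases u' with
    | nil => simpa using h
    | cons c u' =>
      simp only [List.nil_append, List.cons_append, List.cons.injEq] at h
      exact absurd (by simp [h.1] : b ∈ c :: u') hu'
  | cons c u ih =>
    cases u' with
    | nil =>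
      simp only [List.nil_append, List.cons_append, List.cons.injEq] at h
      exact absurd (by simp [h.1] : b ∈ c :: u) hu
    | cons d u' =>
      simp only [List.cons_append, List.cons.injEq] at h
      obtain ⟨h1, h2⟩ := ih u' (fun hh => hu (List.mem_cons_of_mem _ hh))
        (fun hh => hu' (List.mem_cons_of_mem _ hh)) h.2
      exact ⟨by rw [h.1, h1], h2⟩

theorem D_inj {α : Type} (b : α) (us us' : List (List α)) (h1 : ∀ u ∈ us, b ∉ u)
    (h2 : ∀ u ∈ us', b ∉ u) (h : D b us = D b us') : us = us' := by
  induction us generalizing us' with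
  | nil =>
    cases us' with
    | nil => rfl
    | cons u us' => simp [D_cons, D_nil] at h
  | cons u us ih =>
    cases us' with
    | nil => simp [D_cons, D_nil] at h
    | cons u' us' =>
      rw [D_cons, D_cons] at h
      obtain ⟨e1, e2⟩ := app_inj b u u' _ _ (h1 u (by simp)) (h2 u' (by simp)) h
      rw [e1, ih us' (fun v hv => h1 v (by simp [hv])) (fun v hv => h2 v (by simp [hv])) e2]

theorem split_word {α : Type} [DecidableEq α] (B : Finset α) (b : α) (w : List α)
    (hw : Over B w) : ∃ us v, (∀ u ∈ us, Over (B.erase b) u) ∧ Over (B.erase b) v ∧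
      w = D b us ++ v := by
  induction w with
  | nil => exact ⟨[], [], by simp, by simp [Over], by simp [D]⟩
  | cons a w ih =>
    obtain ⟨us, v, h1, h2, h3⟩ := ih fun x hx => hw x (by simp [hx])
    by_cases hab : a = b
    · subst hab
      refine ⟨[] :: us, v, ?_, h2, by simp [D_cons, h3]⟩
      intro u hu
      rcases List.mem_cons.1 hu with rfl | hu
      · simp [Over]
      · exact h1 u hu
    · have ha : a ∈ B.erase b := Finset.mem_erase.2 ⟨hab, hw a (by simp)⟩
      cases us with
      | nil =>
        refine ⟨[], a :: v, by simp, ?_, by simp [D, h3]⟩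
        intro x hx
        rcases List.mem_cons.1 hx with rfl | hx
        · exact ha
        · exact h2 x hx
      | cons u us =>
        refine ⟨(a :: u) :: us, v, ?_, h2, by simp [D_cons, h3]⟩
        intro u' hu'
        rcases List.mem_cons.1 hu' with rfl | hu'
        · intro x hx
          rcases List.mem_cons.1 hx with rfl | hx
          · exact ha
          · exact h1 u (by simp) x hx
        · exact h1 u' (by simp [hu'])

theorem D_over {α : Type} [DecidableEq α] (B : Finset α) (b : α) (hb : b ∈ B)
    (us : List (List α)) (h : ∀ u ∈ us, Over (B.erase b) u) : Over B (D b us) := by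
  intro a ha
  simp only [D, List.mem_flatten, List.mem_map] at ha
  obtain ⟨l, ⟨u, hu, rfl⟩, hal⟩ := ha
  rcases List.mem_append.1 hal with h1 | h1
  · exact Finset.mem_of_mem_erase (h u hu a h1)
  · rw [List.mem_singleton.1 h1]; exact hb

theorem not_mem_of_over {α : Type} [DecidableEq α] {B : Finset α} {b : α} {u : List α}
    (h : Over (B.erase b) u) : b ∉ u := fun hb => by
  simpa using h b hb

/-- pull back of a language along blocks -/
def pb {α Γ : Type} [DecidableEq α] (B : Finset α) (b : α) (g : List α → Γ)
    (L : Set (List Γ)) : Set (List α) :=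
  {m | ∃ us, (∀ u ∈ us, Over (B.erase b) u) ∧ m = D b us ∧ us.map g ∈ L}

theorem H_blocks {α : Type} [Finite α] [DecidableEq α] (B : Finset α) (b : α) (hb : b ∈ B) :
    H 0 {m : List α | ∃ us, (∀ u ∈ us, Over (B.erase b) u) ∧ m = D b us} := by
  have h : H 0 (({[]} : Set (List α)) ∪ cat {w | Over B w} {[b]}) :=
    H_eps.union ((H_over' B).cat (H_letter b))
  convert h using 1
  ext m
  constructor
  · rintro ⟨us, h1, rfl⟩
    rcases List.eq_nil_or_concat us with rfl | ⟨us', u, rfl⟩
    · left; simp [D]
    · right
      refine ⟨D b us' ++ u, ?_, [b], rfl, by simp [D]⟩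
      intro a ha
      rcases List.mem_append.1 ha with h2 | h2
      · exact D_over B b hb us' (fun v hv => h1 v (by simp [hv])) a h2
      · exact Finset.mem_of_mem_erase (h1 u (by simp) a h2)
  · rintro (h1 | ⟨w, hw, x, hx, rfl⟩)
    · obtain rfl : m = [] := h1
      exact ⟨[], by simp, by simp [D]⟩
    · obtain rfl : x = [b] := hx
      obtain ⟨us, v, h1, h2, rfl⟩ := split_word B b w hw
      refine ⟨us ++ [v], ?_, by simp [D]⟩
      intro u hu
      rcases List.mem_append.1 hu with h3 | h3
      · exact h1 u h3
      · rw [List.mem_singleton.1 h3]; exact h2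

theorem H_pb {α Γ : Type} [Finite α] [DecidableEq α] (B : Finset α) (b : α) (hb : b ∈ B)
    (g : List α → Γ) (hg : ∀ γ, H 0 {u : List α | Over (B.erase b) u ∧ g u = γ})
    (P : GRE Γ) (hP : P.sh ≤ 0) : H 0 (pb B b g P.lang) := by
  induction P with
  | zero =>
    have e : pb B b g (GRE.zero : GRE Γ).lang = ∅ := by
      ext m; simp [pb, GRE.lang]
    rw [e]; exact H_empty
  | one =>
    have e : pb B b g (GRE.one : GRE Γ).lang = {[]} := by
      ext m
      simp only [pb, GRE.lang, Set.mem_ofPred_eq, Set.mem_singleton_iff, List.map_eq_nil_iff]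
      constructor
      · rintro ⟨us, -, rfl, rfl⟩; rfl
      · rintro rfl; exact ⟨[], by simp, rfl, rfl⟩
    rw [e]; exact H_eps
  | letter γ =>
    have e : pb B b g (GRE.letter γ).lang =
        cat {u : List α | Over (B.erase b) u ∧ g u = γ} {[b]} := by
      ext m
      simp only [pb, GRE.lang, Set.mem_ofPred_eq, Set.mem_singleton_iff, cat]
      constructor
      · rintro ⟨us, h1, rfl, h2⟩
        obtain ⟨u, rfl, h3⟩ := List.map_eq_singleton_iff.1 h2
        exact ⟨u, ⟨h1 u (by simp), h3⟩, [b], rfl, by simp [D]⟩
      · rintro ⟨u, ⟨h1, h2⟩, v, rfl, rfl⟩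
        exact ⟨[u], by simpa using h1, by simp [D], by simp [h2]⟩
    rw [e]; exact (hg γ).cat (H_letter b)
  | add P1 P2 ih1 ih2 =>
    simp only [GRE.sh, max_le_iff] at hP
    have e : pb B b g (GRE.add P1 P2).lang = pb B b g P1.lang ∪ pb B b g P2.lang := by
      ext m
      simp only [pb, GRE.lang, Set.mem_ofPred_eq, Set.mem_union]
      constructor
      · rintro ⟨us, h1, h2, h3 | h3⟩
        · exact Or.inl ⟨us, h1, h2, h3⟩
        · exact Or.inr ⟨us, h1, h2, h3⟩
      · rintro (⟨us, h1, h2, h3⟩ | ⟨us, h1, h2, h3⟩)
        · exact ⟨us, h1, h2, Or.inl h3⟩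
        · exact ⟨us, h1, h2, Or.inr h3⟩
    rw [e]; exact (ih1 hP.1).union (ih2 hP.2)
  | mul P1 P2 ih1 ih2 =>
    simp only [GRE.sh, max_le_iff] at hP
    have e : pb B b g (GRE.mul P1 P2).lang = cat (pb B b g P1.lang) (pb B b g P2.lang) := by
      ext m
      simp only [pb, GRE.lang, Set.mem_ofPred_eq, cat]
      constructor
      · rintro ⟨us, h1, rfl, l1, hl1, l2, hl2, h3⟩
        obtain ⟨us1, us2, rfl, e1, e2⟩ := List.map_eq_append_iff.1 h3
        exact ⟨D b us1, ⟨us1, fun u hu => h1 u (by simp [hu]), rfl, by rw [e1]; exact hl1⟩,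
          D b us2, ⟨us2, fun u hu => h1 u (by simp [hu]), rfl, by rw [e2]; exact hl2⟩,
          D_append b us1 us2⟩
      · rintro ⟨m1, ⟨us1, h1, rfl, h2⟩, m2, ⟨us2, h3, rfl, h4⟩, rfl⟩
        refine ⟨us1 ++ us2, ?_, (D_append b us1 us2).symm, us1.map g, h2, us2.map g, h4,
          List.map_append⟩
        intro u hu
        rcases List.mem_append.1 hu with h | h
        · exact h1 u h
        · exact h3 u h
    rw [e]; exact (ih1 hP.1).cat (ih2 hP.2)
  | compl P1 ih1 =>
    simp only [GRE.sh] at hP
    have e : pb B b g (GRE.compl P1).lang =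
        {m : List α | ∃ us, (∀ u ∈ us, Over (B.erase b) u) ∧ m = D b us} ∩
          (pb B b g P1.lang)ᶜ := by
      ext m
      simp only [pb, GRE.lang, Set.mem_ofPred_eq, Set.mem_inter_iff, Set.mem_compl_iff]
      constructor
      · rintro ⟨us, h1, rfl, h2⟩
        refine ⟨⟨us, h1, rfl⟩, ?_⟩
        rintro ⟨us', h3, h4, h5⟩
        have := D_inj b us us' (fun u hu => not_mem_of_over (h1 u hu))
          (fun u hu => not_mem_of_over (h3 u hu)) h4
        subst this
        exact h2 h5
      · rintro ⟨⟨us, h1, rfl⟩, h2⟩
        exact ⟨us, h1, rfl, fun h3 => h2 ⟨us, h1, rfl, h3⟩⟩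
    rw [e]; exact (H_blocks B b hb).inter (ih1 hP).compl
  | star P1 ih1 =>
    simp [GRE.sh] at hP


section step
variable {α Q : Type} [Fintype α] [DecidableEq α] [Fintype Q] [LinearOrder Q]

/-- image of the letter `b` -/
abbrev Im (δ : Q → α → Option Q) (b : α) : Type := {q : Q // ∃ p, δ p b = some q}

open Classical in
/-- restrict to the image -/
noncomputable def lift (δ : Q → α → Option Q) (b : α) (o : Option Q) : Option (Im δ b) :=
  o.bind fun r => if h : ∃ p, δ p b = some r then some ⟨r, h⟩ else none

/-- action of `u b` on the image of `b` -/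
noncomputable def act (δ : Q → α → Option Q) (b : α) (u : List α) : Im δ b → Option (Im δ b) :=
  fun p => lift δ b (run δ p.1 (u ++ [b]))

theorem act_some (δ : Q → α → Option Q) (b : α) (u : List α) (p r : Im δ b) :
    act δ b u p = some r ↔ run δ p.1 (u ++ [b]) = some r.1 := by
  unfold act lift
  constructor
  · intro h
    obtain ⟨s, h1, h2⟩ := Option.bind_eq_some_iff.1 h
    by_cases hs : ∃ p, δ p b = some s
    · simp only [hs, dif_pos, Option.some.injEq] at h2
      rw [h1, ← h2]
    · simp [hs] at h2
  · intro h
    rw [h]
    simp only [Option.bind_some]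
    rw [dif_pos r.2]

theorem act_mono (δ : Q → α → Option Q) (hm : Mono δ) (b : α) (u : List α) (p q p' q' : Im δ b)
    (h : p < q) (h1 : act δ b u p = some p') (h2 : act δ b u q = some q') : p' < q' :=
  run_mono δ hm (u ++ [b]) p.1 q.1 p'.1 q'.1 h ((act_some δ b u p p').1 h1)
    ((act_some δ b u q q').1 h2)

/-- the new alphabet -/
abbrev Gam (δ : Q → α → Option Q) (b : α) : Type := Im δ b → Option (Im δ b)

open Classical in
/-- the new automaton -/
noncomputable def dl (δ : Q → α → Option Q) (b : α) (p : Im δ b) (γ : Gam δ b) :
    Option (Im δ b) :=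
  if ∀ x y x' y', x < y → γ x = some x' → γ y = some y' → x' < y' then γ p else none

theorem dl_mono (δ : Q → α → Option Q) (b : α) : Mono (dl δ b) := by
  intro γ p q p' q' h h1 h2
  unfold dl at h1 h2
  by_cases hc : ∀ x y x' y', x < y → γ x = some x' → γ y = some y' → x' < y'
  · rw [if_pos hc] at h1 h2
    exact hc p q p' q' h h1 h2
  · rw [if_neg hc] at h1
    simp at h1

theorem dl_act (δ : Q → α → Option Q) (hm : Mono δ) (b : α) (u : List α) (p : Im δ b) :
    dl δ b p (act δ b u) = act δ b u p := by
  unfold dl
  rw [if_pos]
  intro x y x' y' h h1 h2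
  exact act_mono δ hm b u x y x' y' h h1 h2

theorem run_dl (δ : Q → α → Option Q) (hm : Mono δ) (b : α) (us : List (List α)) :
    ∀ (p q : Im δ b), run (dl δ b) p (us.map (act δ b)) = some q ↔
      run δ p.1 (D b us) = some q.1 := by
  induction us with
  | nil =>
    intro p q
    simp [run, D_nil, Subtype.ext_iff]
  | cons u us ih =>
    intro p q
    rw [List.map_cons, D_cons, run_append]
    simp only [run]
    rw [dl_act δ hm b u p]
    constructor
    · intro h
      obtain ⟨r, h1, h2⟩ := Option.bind_eq_some_iff.1 h
      rw [(act_some δ b u p r).1 h1]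
      simpa using (ih r q).1 h2
    · intro h
      obtain ⟨r, h1, h2⟩ := Option.bind_eq_some_iff.1 h
      have hr : ∃ s, δ s b = some r := by
        rw [run_append] at h1
        obtain ⟨s, h3, h4⟩ := Option.bind_eq_some_iff.1 h1
        simp only [run] at h4
        obtain ⟨t, h5, h6⟩ := Option.bind_eq_some_iff.1 h4
        simp only [Option.some.injEq] at h6
        exact ⟨s, by rw [h5, h6]⟩
      have h3 := (act_some δ b u p ⟨r, hr⟩).2 h1
      rw [h3]
      simpa using (ih ⟨r, hr⟩ q).2 h2

theorem card_Im (δ : Q → α → Option Q) (hm : Mono δ) (b : α) (q0 : Q) (h0 : δ q0 b = none) :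
    Fintype.card (Im δ b) < Fintype.card Q := by
  classical
  have hinj : Function.Injective (fun q : Im δ b => q.2.choose) := by
    intro q q' h
    have e1 := q.2.choose_spec
    have e2 := q'.2.choose_spec
    simp only at h
    rw [← h, e1] at e2
    exact Subtype.ext (by simpa using e2)
  refine Fintype.card_lt_of_injective_of_notMem _ hinj (b := q0) ?_
  rintro ⟨q, hq⟩
  have e1 := q.2.choose_spec
  simp only at hq
  rw [hq, h0] at e1
  simp at e1

end step

/-- a total order preserving self map of a finite linear order is the identity -/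
theorem total_id {Q : Type} [Fintype Q] [LinearOrder Q] (f : Q → Q) (hf : StrictMono f) :
    ∀ q, f q = q := by
  intro q
  have hs : Function.Surjective f := Finite.injective_iff_surjective.1 hf.injective
  let e : Q ≃o Q := StrictMono.orderIsoOfSurjective f hf hs
  have : e = OrderIso.refl Q := Subsingleton.elim _ _
  have h2 : e q = f q := rfl
  rw [← h2, this]; rfl

/-- main induction -/
theorem sf_aux (n : ℕ) : ∀ (Q : Type) [Fintype Q] [LinearOrder Q], Fintype.card Q = n →
    ∀ (α : Type) [Fintype α] [DecidableEq α] (δ : Q → α → Option Q), Mono δ →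
    ∀ (B : Finset α) (i j : Q), H 0 {w : List α | Over B w ∧ run δ i w = some j} := by
  induction n using Nat.strong_induction_on with
  | _ n ihn =>
  intro Q _ _ hn α _ _ δ hm B
  induction hB : B.card using Nat.strong_induction_on generalizing B with
  | _ k ihB =>
  intro i j
  by_cases hall : ∀ b ∈ B, ∀ q, δ q b ≠ none
  · -- all letters act as the identity
    have hid : ∀ b ∈ B, ∀ q, δ q b = some q := by
      intro b hb q
      choose f hf using fun q => Option.ne_none_iff_exists'.1 (hall b hb q)
      have hmf : StrictMono f := fun x y hxy => hm b x y _ _ hxy (hf x) (hf y)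
      rw [hf q, total_id f hmf q]
    have hrun : ∀ w : List α, Over B w → run δ i w = some i := by
      intro w
      induction w with
      | nil => intro _; rfl
      | cons a w ih =>
        intro h
        simp only [run]
        rw [hid a (h a (by simp)) i]
        simpa using ih fun x hx => h x (by simp [hx])
    by_cases hij : i = j
    · subst hij
      convert H_over' B using 1
      ext w
      exact ⟨fun h => h.1, fun h => ⟨h, hrun w h⟩⟩
    · convert (H_empty (α := α) (k := 0)) using 1
      ext w
      simp only [Set.mem_ofPred_eq, Set.mem_empty_iff_false, iff_false, not_and]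
      intro h1 h2
      rw [hrun w h1] at h2
      exact hij (by simpa using h2)
  · push Not at hall
    obtain ⟨b, hb, q0, hq0⟩ := hall
    have hcard := card_Im δ hm b q0 hq0
    have hlt : (B.erase b).card < k := by
      rw [← hB]; exact Finset.card_erase_lt_of_mem hb
    have IB := ihB (B.erase b).card hlt (B.erase b) rfl
    classical
    -- words over `B - b` followed by `b`
    have hA : ∀ (s : Q) (r : Im δ b),
        H 0 {u : List α | Over (B.erase b) u ∧ run δ s (u ++ [b]) = some r.1} := by
      intro s r
      have h := H_iUnion_prop (k := 0) (fun t : Q => δ t b = some r.1)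
        (fun t => {w : List α | Over (B.erase b) w ∧ run δ s w = some t}) (fun t _ => IB s t)
      convert h using 1
      ext u
      simp only [Set.mem_ofPred_eq, run_append]
      constructor
      · rintro ⟨h1, h2⟩
        obtain ⟨t, h3, h4⟩ := Option.bind_eq_some_iff.1 h2
        refine ⟨t, ?_, h1, h3⟩
        simp only [run] at h4
        obtain ⟨x, h5, h6⟩ := Option.bind_eq_some_iff.1 h4
        simp only [Option.some.injEq] at h6
        rw [h5, h6]
      · rintro ⟨t, h1, h2, h3⟩
        exact ⟨h2, by simp [h3, run, h1]⟩
    have hg : ∀ γ : Gam δ b, H 0 {u : List α | Over (B.erase b) u ∧ act δ b u = γ} := by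
      intro γ
      have hp : ∀ (p : Im δ b) (o : Option (Im δ b)),
          H 0 {u : List α | Over (B.erase b) u ∧ act δ b u p = o} := by
        intro p o
        cases o with
        | some r =>
          convert hA p.1 r using 1
          ext u
          simp only [Set.mem_ofPred_eq, act_some]
        | none =>
          have h := (H_over' (B.erase b)).inter (H_iUnion (k := 0)
            (fun r : Im δ b => {u : List α | Over (B.erase b) u ∧
              run δ p.1 (u ++ [b]) = some r.1}) (fun r => hA p.1 r)).compl
          convert h using 1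
          ext u
          simp only [Set.mem_ofPred_eq, Set.mem_inter_iff, Set.mem_compl_iff, Set.mem_iUnion,
            not_exists, not_and]
          constructor
          · rintro ⟨h1, h2⟩
            refine ⟨h1, fun r _ h3 => ?_⟩
            rw [(act_some δ b u p r).2 h3] at h2
            simp at h2
          · rintro ⟨h1, h2⟩
            refine ⟨h1, ?_⟩
            by_contra h3
            obtain ⟨r, hr⟩ := Option.ne_none_iff_exists'.1 h3
            exact h2 r h1 ((act_some δ b u p r).1 hr)
      have h := (H_over' (B.erase b)).inter (H_iInter (k := 0)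
        (fun p : Im δ b => {u : List α | Over (B.erase b) u ∧ act δ b u p = γ p})
        (fun p => hp p (γ p)))
      convert h using 1
      ext u
      simp only [Set.mem_ofPred_eq, Set.mem_inter_iff, Set.mem_iInter]
      constructor
      · rintro ⟨h1, rfl⟩
        exact ⟨h1, fun p => ⟨h1, rfl⟩⟩
      · rintro ⟨h1, h2⟩
        exact ⟨h1, funext fun p => (h2 p).2⟩
    -- the middle part
    have hM : ∀ p q : Im δ b, H 0 (pb B b (act δ b)
        {l : List (Gam δ b) | run (dl δ b) p l = some q}) := by
      intro p q
      have h1 := ihn (Fintype.card (Im δ b)) (hn ▸ hcard) (Im δ b) rfl (Gam δ b) (dl δ b)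
        (dl_mono δ b) Finset.univ p q
      have h2 : {w : List (Gam δ b) | Over Finset.univ w ∧ run (dl δ b) p w = some q} =
          {l : List (Gam δ b) | run (dl δ b) p l = some q} := by
        ext w; simp [Over]
      rw [h2] at h1
      obtain ⟨P, hP, hP2⟩ := h1
      rw [← hP2]
      exact H_pb B b hb (act δ b) hg P hP
    have hU : H 0 (⋃ pq : Im δ b × Im δ b,
        cat (cat {u : List α | Over (B.erase b) u ∧ run δ i (u ++ [b]) = some pq.1.1} {[b]})
          (cat (pb B b (act δ b) {l : List (Gam δ b) | run (dl δ b) pq.1 l = some pq.2})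
            {w : List α | Over (B.erase b) w ∧ run δ pq.2.1 w = some j})) :=
      H_iUnion _ fun pq => ((hA i pq.1).cat (H_letter b)).cat ((hM pq.1 pq.2).cat (IB pq.2.1 j))
    convert (IB i j).union hU using 1
    ext w
    simp only [Set.mem_ofPred_eq, Set.mem_union, Set.mem_iUnion, Prod.exists]
    constructor
    · rintro ⟨h1, h2⟩
      obtain ⟨us, v, h3, h4, rfl⟩ := split_word B b w h1
      cases us with
      | nil => left; exact ⟨by simpa [D] using h4, by simpa [D] using h2⟩
      | cons u us =>
        right
        rw [D_cons, List.append_assoc, run_append] at h2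
        obtain ⟨p, h5, h6⟩ := Option.bind_eq_some_iff.1 h2
        have hp : ∃ s, δ s b = some p := by
          rw [run_append] at h5
          obtain ⟨s, h7, h8⟩ := Option.bind_eq_some_iff.1 h5
          simp only [run] at h8
          obtain ⟨t, h9, h10⟩ := Option.bind_eq_some_iff.1 h8
          simp only [Option.some.injEq] at h10
          exact ⟨s, by rw [h9, h10]⟩
        rw [run_append] at h6
        obtain ⟨q, h7, h8⟩ := Option.bind_eq_some_iff.1 h6
        -- q lies in the image
        have hq : ∃ s, δ s b = some q := by
          rcases List.eq_nil_or_concat us with rfl | ⟨us', u', rfl⟩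
          · simp only [D_nil, run, Option.some.injEq] at h7
            rw [← h7]; exact hp
          · rw [List.concat_eq_append, D_append, D_cons, D_nil, List.append_nil,
              ← List.append_assoc, run_append] at h7
            obtain ⟨s, h9, h10⟩ := Option.bind_eq_some_iff.1 h7
            simp only [run] at h10
            obtain ⟨t, h11, h12⟩ := Option.bind_eq_some_iff.1 h10
            simp only [Option.some.injEq] at h12
            exact ⟨s, by rw [h11, h12]⟩
        refine ⟨⟨p, hp⟩, ⟨q, hq⟩, u ++ [b], ⟨u, ⟨h3 u (by simp), h5⟩, [b], rfl, rfl⟩, D b us ++ v,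
          ⟨D b us, ⟨us, fun x hx => h3 x (by simp [hx]), rfl,
            (run_dl δ hm b us ⟨p, hp⟩ ⟨q, hq⟩).2 h7⟩, v, ⟨h4, h8⟩, rfl⟩, ?_⟩
        rw [D_cons, List.append_assoc]
    · rintro (⟨h1, h2⟩ | ⟨p, q, x, ⟨u, ⟨h1, h2⟩, y, hy, rfl⟩, z, ⟨m, ⟨us, h3, rfl, h4⟩, v,
        ⟨h5, h6⟩, rfl⟩, rfl⟩)
      · exact ⟨fun a ha => Finset.mem_of_mem_erase (h1 a ha), h2⟩
      · obtain rfl : y = [b] := hy
        refine ⟨?_, ?_⟩
        · intro a ha
          rcases List.mem_append.1 ha with ha | ha
          · rcases List.mem_append.1 ha with ha | ha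
            · exact Finset.mem_of_mem_erase (h1 a ha)
            · rw [List.mem_singleton.1 ha]; exact hb
          · rcases List.mem_append.1 ha with ha | ha
            · exact D_over B b hb us h3 a ha
            · exact Finset.mem_of_mem_erase (h5 a ha)
        · rw [run_append, h2]
          simp only [Option.bind_some]
          rw [run_append, (run_dl δ hm b us p q).1 h4]
          simpa using h6

/-- ROW S (Schützenberger for order preserving partial injections) -/
theorem sf_run {α Q : Type} [Fintype α] [DecidableEq α] [Fintype Q] [LinearOrder Q]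
    (δ : Q → α → Option Q) (hm : Mono δ) (i j : Q) :
    H 0 {w : List α | run δ i w = some j} := by
  have h := sf_aux (Fintype.card Q) Q rfl α δ hm Finset.univ i j
  convert h using 1
  ext w
  simp [Over]

end Vale.Agent.H12.GSH
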